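import Mathlib

/-!
# P173 B1: closure systems with finitary, countably branching operations
-/

namespace Vale.Agent.P173.B1

open Cardinal

variable {Ω : Type} (F : List Ω → Set Ω)

/-- closed sets -/
def Closed (M : Set Ω) : Prop := ∀ l : List Ω, (∀ y ∈ l, y ∈ M) → F l ⊆ M

/-- closure -/
def cl (S : Set Ω) : Set Ω := ⋂₀ {M | Closed F M ∧ S ⊆ M}

theorem closed_inter {M N : Set Ω} (hM : Closed F M) (hN : Closed F N) : Closed F (M ∩ N) :=
  fun l hl => Set.subset_inter (hM l fun y hy => (hl y hy).1) (hN l fun y hy => (hl y hy).2)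

theorem closed_cl (S : Set Ω) : Closed F (cl F S) := by
  intro l hl y hy M hM
  exact hM.1 l (fun z hz => hl z hz M hM) hy

theorem subset_cl (S : Set Ω) : S ⊆ cl F S := fun _ hy _ hM => hM.2 hy

theorem cl_min {S M : Set Ω} (hM : Closed F M) (h : S ⊆ M) : cl F S ⊆ M :=
  fun _ hy => hy M ⟨hM, h⟩

theorem cl_mono {S T : Set Ω} (h : S ⊆ T) : cl F S ⊆ cl F T :=
  cl_min F (closed_cl F T) (h.trans (subset_cl F T))

/-- one step -/
private def stp (T : Set Ω) : Set Ω := T ∪ ⋃ l : List T, F (l.map Subtype.val)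

/-- iteration -/
private def itr (S : Set Ω) : ℕ → Set Ω
  | 0 => S
  | n + 1 => stp F (itr S n)

private theorem mk_stp (hF : ∀ l, (F l).Countable) {T : Set Ω} {κ : Cardinal} (hκ : ℵ₀ ≤ κ)
    (hT : #T ≤ κ) : #(stp F T) ≤ κ := by
  have h1 : #(⋃ l : List T, F (l.map Subtype.val) : Set Ω) ≤ κ := by
    refine (mk_iUnion_le_sum_mk).trans ?_
    refine (Cardinal.sum_le_sum _ (fun _ => ℵ₀) (fun l => (hF _).le_aleph0)).trans ?_
    rw [Cardinal.sum_const, Cardinal.lift_id, Cardinal.lift_id]
    have h2 : #(List T) ≤ κ := (mk_list_le_max T).trans (max_le hκ hT)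
    exact (mul_le_mul' h2 hκ).trans (mul_eq_self hκ).le
  refine (mk_union_le _ _).trans ?_
  exact (add_le_add hT h1).trans (add_eq_self hκ).le

private theorem itr_mono (S : Set Ω) {m n : ℕ} (h : m ≤ n) : itr F S m ⊆ itr F S n := by
  induction h with
  | refl => exact subset_rfl
  | step _ ih => exact ih.trans Set.subset_union_left

/-- cardinality of the closure: iterate `S ↦ S ∪ ⋃ {F l | l a list of elements of S}` countably often -/
theorem mk_cl_le (hF : ∀ l, (F l).Countable) (S : Set Ω) : #(cl F S) ≤ max #S ℵ₀ := by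
  have hκ : ℵ₀ ≤ max #S ℵ₀ := le_max_right _ _
  have hc : Closed F (⋃ n, itr F S n) := by
    intro l hl
    have hn : ∃ n, ∀ y ∈ l, y ∈ itr F S n := by
      clear hκ
      induction l with
      | nil => exact ⟨0, fun y hy => absurd hy List.not_mem_nil⟩
      | cons a l ih =>
        obtain ⟨n, hn⟩ := ih (fun y hy => hl y (List.mem_cons_of_mem _ hy))
        obtain ⟨m, hm⟩ := Set.mem_iUnion.mp (hl a List.mem_cons_self)
        refine ⟨max m n, fun y hy => ?_⟩
        rcases List.mem_cons.mp hy with rfl | h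
        · exact itr_mono F S (le_max_left _ _) hm
        · exact itr_mono F S (le_max_right _ _) (hn y h)
    obtain ⟨n, hn⟩ := hn
    intro y hy
    refine Set.mem_iUnion.mpr ⟨n + 1, Or.inr (Set.mem_iUnion.mpr ⟨l.attach.map
      (fun z => ⟨z.1, hn z.1 z.2⟩), ?_⟩)⟩
    have e : (l.attach.map (fun z => (⟨z.1, hn z.1 z.2⟩ : itr F S n))).map Subtype.val = l := by
      rw [List.map_map]
      exact List.attach_map_subtype_val l
    rw [e]
    exact hy
  have hsub : cl F S ⊆ ⋃ n, itr F S n :=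
    cl_min F hc (fun y hy => Set.mem_iUnion.mpr ⟨0, hy⟩)
  refine (mk_le_mk_of_subset hsub).trans ?_
  have hn : ∀ n, #(itr F S n) ≤ max #S ℵ₀ := by
    intro n
    induction n with
    | zero => exact le_max_left _ _
    | succ n ih => exact mk_stp F hF hκ ih
  refine (mk_iUnion_le_sum_mk).trans ?_
  refine (Cardinal.sum_le_sum _ (fun _ => max #S ℵ₀) hn).trans ?_
  rw [Cardinal.sum_const, Cardinal.lift_id, Cardinal.lift_id, mk_nat]
  exact (mul_le_mul' hκ le_rfl).trans (mul_eq_self hκ).le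

end Vale.Agent.P173.B1
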