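import Vale.Agent.Lib.P173.B1.Ops

/-!
# P173 B1: translates of closed parts
-/

namespace Vale.Agent.P173.B1

variable {K : ColGraph} {A : Type} [CommGroup A] {X : TwoComplex} {D : Data K A X}

/-- the translate by `g` of the part of `X` in `M` -/
def Ysub {M : Set (Om A X)} (h : Good D M) (g : K.G A) : Sub X where
  v := {x | (inV (D.act.aV g⁻¹ x) : Om A X) ∈ M}
  e := {x | (inE (D.act.aE g⁻¹ x) : Om A X) ∈ M}
  f := {x | (inF (D.act.aF g⁻¹ x) : Om A X) ∈ M}
  src_mem := fun x hx => by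
    have h1 := h.src _ hx
    rwa [D.act.src_eq] at h1
  tgt_mem := fun x hx => by
    have h1 := h.tgt _ hx
    rwa [D.act.tgt_eq] at h1
  base_mem := fun x hx => by
    have h1 := h.fbase _ hx
    rwa [D.act.base_eq] at h1
  bd_mem := fun x hx eb heb => by
    have h1 := h.bd _ hx (D.act.aE g⁻¹ eb.1, eb.2) (by
      rw [D.act.bd_eq]
      exact List.mem_map.2 ⟨eb, heb, rfl⟩)
    exact h1

theorem Cover_sub_ext {Y Z : Sub X} (h1 : Y.v = Z.v) (h2 : Y.e = Z.e) (h3 : Y.f = Z.f) :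
    Y = Z := by
  cases Y
  cases Z
  simp only at h1 h2 h3
  subst h1
  subst h2
  subst h3
  rfl

theorem Cover_inv_mul_V (act : FreeAct (K.G A) X) (g : K.G A) (x : X.V) :
    act.aV g⁻¹ (act.aV g x) = x := by
  rw [← act.mulV, inv_mul_cancel, act.oneV]

theorem Cover_mul_inv_V (act : FreeAct (K.G A) X) (g : K.G A) (x : X.V) :
    act.aV g (act.aV g⁻¹ x) = x := by
  rw [← act.mulV, mul_inv_cancel, act.oneV]

theorem Cover_inv_mul_E (act : FreeAct (K.G A) X) (g : K.G A) (x : X.E) :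
    act.aE g⁻¹ (act.aE g x) = x := by
  rw [← act.mulE, inv_mul_cancel, act.oneE]

theorem Cover_mul_inv_E (act : FreeAct (K.G A) X) (g : K.G A) (x : X.E) :
    act.aE g (act.aE g⁻¹ x) = x := by
  rw [← act.mulE, mul_inv_cancel, act.oneE]

theorem Cover_inv_mul_F (act : FreeAct (K.G A) X) (g : K.G A) (x : X.F) :
    act.aF g⁻¹ (act.aF g x) = x := by
  rw [← act.mulF, inv_mul_cancel, act.oneF]

theorem Cover_mul_inv_F (act : FreeAct (K.G A) X) (g : K.G A) (x : X.F) :
    act.aF g (act.aF g⁻¹ x) = x := by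
  rw [← act.mulF, mul_inv_cancel, act.oneF]

/-- translate of a path -/
theorem Cover_path (act : FreeAct (K.G A) X) (g : K.G A) (p : List (X.E × Bool)) :
    ∀ x y : X.V, X.Path x p y →
      X.Path (act.aV g x) (p.map fun eb => (act.aE g eb.1, eb.2)) (act.aV g y) := by
  induction p with
  | nil =>
    intro x y h
    change x = y at h
    subst h
    rfl
  | cons eb p ih =>
    intro x y h
    obtain ⟨e, b⟩ := eb
    cases b
    · obtain ⟨h1, h2⟩ := h
      refine ⟨?_, ?_⟩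
      · change X.tgt (act.aE g e) = _
        rw [act.tgt_eq, h1]
      · have := ih _ _ h2
        change X.Path (X.src (act.aE g e)) _ _
        rw [act.src_eq]
        exact this
    · obtain ⟨h1, h2⟩ := h
      refine ⟨?_, ?_⟩
      · change X.src (act.aE g e) = _
        rw [act.src_eq, h1]
      · have := ih _ _ h2
        change X.Path (X.tgt (act.aE g e)) _ _
        rw [act.tgt_eq]
        exact this

/-- holonomy along a translate -/
theorem Cover_hol (act : FreeAct (K.G A) X) (g : K.G A) {H : Type} [Group H] (c : X.E → H)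
    (p : List (X.E × Bool)) :
    hol c (p.map fun eb => (act.aE g eb.1, eb.2)) = hol (fun e => c (act.aE g e)) p := by
  unfold hol
  rw [List.map_map]
  rfl

theorem Cover_map_map (act : FreeAct (K.G A) X) (g : K.G A) (p : List (X.E × Bool)) :
    (p.map fun eb => (act.aE g⁻¹ eb.1, eb.2)).map (fun eb => (act.aE g eb.1, eb.2)) = p := by
  rw [List.map_map]
  conv_rhs => rw [← List.map_id p]
  apply List.map_congr_left
  intro eb _
  change (act.aE g (act.aE g⁻¹ eb.1), eb.2) = eb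
  rw [Cover_mul_inv_E]

theorem Ysub_conn {M : Set (Om A X)} (h : Good D M) (g : K.G A) : (Ysub h g).Conn := by
  refine ⟨⟨D.act.aV g D.x0, ?_⟩, fun x hx y hy => ?_⟩
  · change (inV (D.act.aV g⁻¹ (D.act.aV g D.x0)) : Om A X) ∈ M
    rw [Cover_inv_mul_V]
    exact h.base
  · refine ⟨(D.path (D.act.aV g⁻¹ x) (D.act.aV g⁻¹ y)).map fun eb => (D.act.aE g eb.1, eb.2),
      ?_, ?_⟩
    · have h1 := Cover_path D.act g _ _ _ (D.path_eq (D.act.aV g⁻¹ x) (D.act.aV g⁻¹ y))
      rwa [Cover_mul_inv_V, Cover_mul_inv_V] at h1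
    · intro eb heb
      obtain ⟨eb', h1, rfl⟩ := List.mem_map.1 heb
      change (inE (D.act.aE g⁻¹ (D.act.aE g eb'.1)) : Om A X) ∈ M
      rw [Cover_inv_mul_E]
      exact h.path _ _ hx hy _ h1

theorem Ysub_sc {M : Set (Om A X)} (h : Good D M) (g : K.G A) : (Ysub h g).SC := by
  classical
  intro x hx p hp hpe
  have hp' := Cover_path D.act g⁻¹ p _ _ hp
  have hmem : ∀ eb ∈ (p.map fun eb => (D.act.aE g⁻¹ eb.1, eb.2)), (inE eb.1 : Om A X) ∈ M := by
    intro eb heb
    obtain ⟨eb', h1, rfl⟩ := List.mem_map.1 heb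
    exact hpe eb' h1
  refine ⟨(D.faces (D.act.aV g⁻¹ x) (p.map fun eb => (D.act.aE g⁻¹ eb.1, eb.2))).image
    (D.act.aF g), ?_, ?_⟩
  · intro f hf
    obtain ⟨f', h1, rfl⟩ := Finset.mem_image.1 hf
    change (inF (D.act.aF g⁻¹ (D.act.aF g f')) : Om A X) ∈ M
    rw [Cover_inv_mul_F]
    exact h.faces _ _ hx hmem _ h1
  · intro H _ c hc
    have h1 := D.faces_eq _ _ hp' H (fun e => c (D.act.aE g e)) (by
      intro f hf
      rw [← Cover_hol D.act g c, ← D.act.bd_eq]
      exact hc _ (Finset.mem_image_of_mem _ hf))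
    rw [← Cover_hol D.act g c, Cover_map_map] at h1
    exact h1

/-- independence of the translating element -/
theorem Ysub_eq {M : Set (Om A X)} (h : Good D M) (g g' : K.G A)
    (hg : K.incl A (g⁻¹ * g') ∈ K.wsub A Set.univ {a | (inA a : Om A X) ∈ M}) :
    Ysub h g = Ysub h g' := by
  have hg' : K.incl A (g'⁻¹ * g) ∈ K.wsub A Set.univ {a | (inA a : Om A X) ∈ M} := by
    have h1 : g'⁻¹ * g = (g⁻¹ * g')⁻¹ := by group
    rw [h1, map_inv]
    exact Subgroup.inv_mem _ hg
  apply Cover_sub_ext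
  · ext x
    constructor
    · intro hx
      have h1 := h.actV _ _ hg' hx
      rw [D.act.mulV, Cover_mul_inv_V] at h1
      exact h1
    · intro hx
      have h1 := h.actV _ _ hg hx
      rw [D.act.mulV, Cover_mul_inv_V] at h1
      exact h1
  · ext x
    constructor
    · intro hx
      have h1 := h.actE _ _ hg' hx
      rw [D.act.mulE, Cover_mul_inv_E] at h1
      exact h1
    · intro hx
      have h1 := h.actE _ _ hg hx
      rw [D.act.mulE, Cover_mul_inv_E] at h1
      exact h1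
  · ext x
    constructor
    · intro hx
      have h1 := h.actF _ _ hg' hx
      rw [D.act.mulF, Cover_mul_inv_F] at h1
      exact h1
    · intro hx
      have h1 := h.actF _ _ hg hx
      rw [D.act.mulF, Cover_mul_inv_F] at h1
      exact h1

theorem Ysub_inter {M N : Set (Om A X)} (hM : Good D M) (hN : Good D N) (hMN : Good D (M ∩ N))
    (g : K.G A) : (Ysub hM g).inter (Ysub hN g) = Ysub hMN g := by
  apply Cover_sub_ext <;> rfl

/-- common vertices: `g⁻¹ x` and `g'⁻¹ x` have the same orbit representative -/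
theorem Ysub_meet {M N : Set (Om A X)} (hM : Good D M) (hN : Good D N) (g g' : K.G A) (x : X.V)
    (h1 : x ∈ (Ysub hM g).v) (h2 : x ∈ (Ysub hN g').v) :
    ∃ a ∈ K.wsub A Set.univ {a | (inA a : Om A X) ∈ M},
      ∃ b ∈ K.wsub A Set.univ {a | (inA a : Om A X) ∈ N}, K.incl A (g⁻¹ * g') = a * b := by
  have e1 := D.rep_eq (D.act.aV g⁻¹ x)
  have e2 := D.rep_eq (D.act.aV g'⁻¹ x)
  rw [D.rep_orb] at e1 e2
  have e3 : D.act.aV (g * D.gel (D.act.aV g⁻¹ x)) (D.rep x) = x := by
    rw [D.act.mulV, e1, Cover_mul_inv_V]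
  have e4 : D.act.aV (g' * D.gel (D.act.aV g'⁻¹ x)) (D.rep x) = x := by
    rw [D.act.mulV, e2, Cover_mul_inv_V]
  have e5 : D.act.aV ((g' * D.gel (D.act.aV g'⁻¹ x))⁻¹ * (g * D.gel (D.act.aV g⁻¹ x)))
      (D.rep x) = D.rep x := by
    rw [D.act.mulV, e3]
    have e9 := Cover_inv_mul_V D.act (g' * D.gel (D.act.aV g'⁻¹ x)) (D.rep x)
    rw [e4] at e9
    exact e9
  have e6 := D.act.free _ _ e5
  have e7 : g⁻¹ * g' = D.gel (D.act.aV g⁻¹ x) * (D.gel (D.act.aV g'⁻¹ x))⁻¹ := by
    have e8 : g * D.gel (D.act.aV g⁻¹ x) = g' * D.gel (D.act.aV g'⁻¹ x) :=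
      (inv_mul_eq_one.1 e6).symm
    rw [eq_mul_inv_iff_mul_eq, mul_assoc, ← e8, inv_mul_cancel_left]
  refine ⟨_, hM.gel _ h1, (K.incl A (D.gel (D.act.aV g'⁻¹ x)))⁻¹,
    Subgroup.inv_mem _ (hN.gel _ h2), ?_⟩
  rw [e7, map_mul, map_inv]

end Vale.Agent.P173.B1
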