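import Vale.Agent.Lib.P173.Setup

/-!
# P173 B1: paths, holonomy, translates
-/

namespace Vale.Agent.P173.B1

theorem hol_append {E H : Type} [Group H] (c : E → H) (p q : List (E × Bool)) :
    hol c (p ++ q) = hol c p * hol c q := by
  simp [hol]

theorem hol_map {E E' H : Type} [Group H] (c : E' → H) (φ : E → E') (p : List (E × Bool)) :
    hol c (p.map fun eb => (φ eb.1, eb.2)) = hol (fun e => c (φ e)) p := by
  simp [hol, Function.comp_def]

theorem hol_step_cancel {E H : Type} [Group H] (c : E → H) (l r : List (E × Bool)) (e : E)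
    (b : Bool) : hol c (l ++ (e, b) :: (e, !b) :: r) = hol c (l ++ r) := by
  cases b <;> simp [hol]

/-- homotopic paths have the same holonomy as soon as it is trivial on a suitable finite set of faces
(induction on the homotopy; the finite set does not depend on the group) -/
theorem exists_faces_homotopic (X : TwoComplex) (x y : X.V) (p q : List (X.E × Bool))
    (h : X.Homotopic x y p q) : ∃ S : Finset X.F,
    ∀ (H : Type) [Group H] (c : X.E → H), (∀ f ∈ S, hol c (X.bd f) = 1) → hol c p = hol c q := by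
  classical
  induction h with
  | rel p q hpq =>
    obtain ⟨hs, -, -⟩ := hpq
    cases hs with
    | cancel l r e b =>
      exact ⟨∅, fun H _ c _ => hol_step_cancel c l r e b⟩
    | face l r f =>
      refine ⟨{f}, fun H _ c hc => ?_⟩
      rw [hol_append, hol_append, hol_append, hc f (Finset.mem_singleton_self f), mul_one]
  | refl p => exact ⟨∅, fun H _ c _ => rfl⟩
  | symm p q _ ih =>
    obtain ⟨S, hS⟩ := ih
    exact ⟨S, fun H _ c hc => (hS H c hc).symm⟩
  | trans p q r _ _ ih1 ih2 =>
    obtain ⟨S, hS⟩ := ih1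
    obtain ⟨T, hT⟩ := ih2
    exact ⟨S ∪ T, fun H _ c hc => (hS H c fun f hf => hc f (Finset.mem_union_left _ hf)).trans
      (hT H c fun f hf => hc f (Finset.mem_union_right _ hf))⟩

theorem exists_faces (X : TwoComplex) (hs : X.IsSimplyConn) (x : X.V) (p : List (X.E × Bool))
    (hp : X.Path x p x) : ∃ S : Finset X.F,
    ∀ (H : Type) [Group H] (c : X.E → H), (∀ f ∈ S, hol c (X.bd f) = 1) → hol c p = 1 := by
  obtain ⟨S, hS⟩ := exists_faces_homotopic X x x p [] (hs x p hp)
  refine ⟨S, fun H _ c hc => ?_⟩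
  rw [hS H c hc]
  simp [hol]

variable {G : Type} [Group G] {X : TwoComplex} (act : FreeAct G X)

theorem path_act (g : G) {x y : X.V} {p : List (X.E × Bool)} (h : X.Path x p y) :
    X.Path (act.aV g x) (p.map fun eb => (act.aE g eb.1, eb.2)) (act.aV g y) := by
  induction p generalizing x with
  | nil =>
    have h' : x = y := h
    subst h'
    rfl
  | cons eb p ih =>
    obtain ⟨e, b⟩ := eb
    cases b with
    | true =>
      obtain ⟨h1, h2⟩ : X.src e = x ∧ X.Path (X.tgt e) p y := h
      refine ⟨?_, ?_⟩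
      · rw [act.src_eq, h1]
      · have := ih h2
        rw [act.tgt_eq]
        exact this
    | false =>
      obtain ⟨h1, h2⟩ : X.tgt e = x ∧ X.Path (X.src e) p y := h
      refine ⟨?_, ?_⟩
      · rw [act.tgt_eq, h1]
      · have := ih h2
        rw [act.src_eq]
        exact this

theorem aV_inv_cancel (g : G) (x : X.V) : act.aV g⁻¹ (act.aV g x) = x := by
  rw [← act.mulV, inv_mul_cancel, act.oneV]

theorem aV_cancel_inv (g : G) (x : X.V) : act.aV g (act.aV g⁻¹ x) = x := by
  rw [← act.mulV, mul_inv_cancel, act.oneV]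

theorem aE_inv_cancel (g : G) (x : X.E) : act.aE g⁻¹ (act.aE g x) = x := by
  rw [← act.mulE, inv_mul_cancel, act.oneE]

theorem aE_cancel_inv (g : G) (x : X.E) : act.aE g (act.aE g⁻¹ x) = x := by
  rw [← act.mulE, mul_inv_cancel, act.oneE]

theorem aF_inv_cancel (g : G) (x : X.F) : act.aF g⁻¹ (act.aF g x) = x := by
  rw [← act.mulF, inv_mul_cancel, act.oneF]

theorem aF_cancel_inv (g : G) (x : X.F) : act.aF g (act.aF g⁻¹ x) = x := by
  rw [← act.mulF, mul_inv_cancel, act.oneF]

/-- freeness: an orbit map is injective -/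
theorem aV_inj {g h : G} {x : X.V} (e : act.aV g x = act.aV h x) : g = h := by
  have h1 : act.aV (h⁻¹ * g) x = x := by
    rw [act.mulV, e, aV_inv_cancel]
  have h2 := act.free _ _ h1
  exact (inv_mul_eq_one.1 h2).symm

/-- orbit representatives -/
theorem exists_rep : ∃ (rep : X.V → X.V) (gel : X.V → G), (∀ x, act.aV (gel x) (rep x) = x) ∧
    ∀ g x, rep (act.aV g x) = rep x := by
  classical
  let s : Setoid X.V :=
    { r := fun x y => ∃ g, act.aV g x = y
      iseqv := ⟨fun x => ⟨1, act.oneV x⟩,
        fun {x y} ⟨g, hg⟩ => ⟨g⁻¹, by rw [← hg, aV_inv_cancel]⟩,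
        fun {x y z} ⟨g, hg⟩ ⟨k, hk⟩ => ⟨k * g, by rw [act.mulV, hg, hk]⟩⟩ }
  have key : ∀ x, ∃ g, act.aV g (Quotient.out (Quotient.mk s x)) = x := fun x =>
    Quotient.exact (Quotient.out_eq (Quotient.mk s x))
  choose gel hgel using key
  refine ⟨fun x => Quotient.out (Quotient.mk s x), gel, hgel, fun g x => ?_⟩
  have : Quotient.mk s (act.aV g x) = Quotient.mk s x :=
    Quotient.sound (s.symm ⟨g, rfl⟩)
  show Quotient.out (Quotient.mk s (act.aV g x)) = Quotient.out (Quotient.mk s x)
  rw [this]

end Vale.Agent.P173.B1
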