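import Vale.Agent.Lib.P173.B1.Main
import Vale.Agent.Lib.P173.Interface

/-! # P173: part B1 -/

namespace Vale.Agent.P173

theorem partB1 : PartB1 := fun _ _ _ _ _ hP h2 hA _ act hX =>
  B1.exists_goodCover hP h2 hA hX.1 hX.2.1 act

end Vale.Agent.P173
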