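import Vale.Agent.Lib.P173.B1.Clo

/-!
# P173 B1: free triples (Kuratowski)

Let `C S = ι⁻¹ (cl (ι '' S))` for `S ⊆ A`; `#(C S) ≤ max #S ℵ₀`. Choose `B ⊆ A` with `#B = ℵ₂`;
`x₀ ∉ C B` (`#(C B) ≤ ℵ₂ < #A`); `E ⊆ B` with `#E = ℵ₁`, `x₁ ∈ B`, `x₁ ∉ C (E ∪ {x₀})`; `x₂ ∈ E`, `x₂ ∉ C {x₀, x₁}`
(countable). Then `x₀ ∉ C {x₁, x₂} ⊆ C B`, `x₁ ∉ C {x₀, x₂} ⊆ C (E ∪ {x₀})`, `x₂ ∉ C {x₀, x₁}`.
-/

namespace Vale.Agent.P173.B1

open Cardinal

variable {Ω : Type} (F : List Ω → Set Ω)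

/-- a set of cardinality larger than `max #S ℵ₀` contains an element outside the closure of `S` -/
private theorem Free3_exists (hF : ∀ l, (F l).Countable) {A : Type} (ι : A → Ω)
    (hι : Function.Injective ι) (S T : Set A) {c : Cardinal.{0}} (hc : ℵ₀ ≤ c) (hS : #S ≤ c)
    (hT : c < #T) : ∃ x ∈ T, ι x ∉ cl F (ι '' S) := by
  by_contra hcon
  push Not at hcon
  have h1 : #T ≤ #(cl F (ι '' S)) := by
    refine Cardinal.mk_le_of_injective (f := fun x : T => ⟨ι x.1, hcon x.1 x.2⟩) ?_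
    intro x y hxy
    exact Subtype.ext (hι (congrArg Subtype.val hxy))
  have h2 : #(cl F (ι '' S)) ≤ c := by
    refine (mk_cl_le F hF _).trans (max_le ?_ hc)
    exact Cardinal.mk_image_le.trans hS
  exact absurd (hT.trans_le (h1.trans h2)) (lt_irrefl _)

theorem exists_free3 (hF : ∀ l, (F l).Countable) {A : Type} (ι : A → Ω)
    (hι : Function.Injective ι) (hA : aleph 3 ≤ #A) :
    ∃ x : Fin 3 → A, ∀ i, ι (x i) ∉ cl F (ι '' {a | ∃ j, j ≠ i ∧ a = x j}) := by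
  have h23 : aleph 2 < aleph 3 := aleph_lt_aleph.mpr (by exact_mod_cast (by norm_num : 2 < 3))
  have h12 : aleph 1 < aleph 2 := aleph_lt_aleph.mpr (by exact_mod_cast (by norm_num : 1 < 2))
  have h01 : ℵ₀ < aleph 1 := aleph0_lt_aleph_one
  obtain ⟨B, hB⟩ := le_mk_iff_exists_set.mp (h23.le.trans hA)
  obtain ⟨x0, -, hx0⟩ := Free3_exists F hF ι hι B Set.univ (c := aleph 2)
    (h01.le.trans h12.le) hB.le (by rw [mk_univ]; exact h23.trans_le hA)
  obtain ⟨E, hEB, hE⟩ := le_mk_iff_exists_subset.mp (h12.le.trans hB.ge)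
  have hE1 : #(insert x0 E : Set A) ≤ aleph 1 := by
    refine (mk_insert_le).trans ?_
    rw [hE]
    exact (add_le_add le_rfl (one_lt_aleph0.le.trans h01.le)).trans
      (add_eq_self h01.le).le
  obtain ⟨x1, hx1B, hx1⟩ := Free3_exists F hF ι hι (insert x0 E) B (c := aleph 1) h01.le hE1
    (by rw [hB]; exact h12)
  have h2 : #({x0, x1} : Set A) ≤ ℵ₀ := (Set.toFinite _).countable.le_aleph0
  obtain ⟨x2, hx2E, hx2⟩ := Free3_exists F hF ι hι {x0, x1} E (c := ℵ₀) le_rfl h2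
    (by rw [hE]; exact h01)
  refine ⟨![x0, x1, x2], fun i => ?_⟩
  fin_cases i
  · show ι x0 ∉ _
    refine fun h => hx0 (cl_mono F (Set.image_mono ?_) h)
    rintro a ⟨j, hj, rfl⟩
    fin_cases j
    · exact absurd rfl hj
    · exact hx1B
    · exact hEB hx2E
  · show ι x1 ∉ _
    refine fun h => hx1 (cl_mono F (Set.image_mono ?_) h)
    rintro a ⟨j, hj, rfl⟩
    fin_cases j
    · exact Set.mem_insert _ _
    · exact absurd rfl hj
    · exact Set.mem_insert_of_mem _ hx2E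
  · show ι x2 ∉ _
    refine fun h => hx2 (cl_mono F (Set.image_mono ?_) h)
    rintro a ⟨j, hj, rfl⟩
    fin_cases j
    · exact Set.mem_insert _ _
    · exact Set.mem_insert_of_mem _ rfl
    · exact absurd rfl hj

end Vale.Agent.P173.B1
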