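import Mathlib

/-! # P173 B1: functionals on an elementary abelian 2-group -/

namespace Vale.Agent.P173.B1

/-- separation of points from subgroups in an elementary abelian 2-group -/
theorem exists_func {A : Type} [CommGroup A] (hA : ∀ a : A, a * a = 1) (B : Subgroup A) {x : A}
    (hx : x ∉ B) : ∃ f : A →* Multiplicative (ZMod 2), (∀ a ∈ B, f a = 1) ∧ f x ≠ 1 := by
  have h2 : ∀ a : Additive A, (2 : ℕ) • a = 0 := fun a => by
    rw [two_nsmul]
    exact hA a.toMul
  let _ : Module (ZMod 2) (Additive A) := AddCommGroup.zmodModule h2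
  obtain ⟨B', hB'⟩ : ∃ B' : Submodule (ZMod 2) (Additive A), ∀ a, a ∈ B' ↔ a.toMul ∈ B :=
    ⟨AddSubgroup.toZModSubmodule 2 (Subgroup.toAddSubgroup B), fun a => Iff.rfl⟩
  have hx' : Additive.ofMul x ∉ B' := fun h => hx ((hB' _).1 h)
  obtain ⟨f, hf, hfB⟩ := Submodule.exists_le_ker_of_notMem hx'
  refine ⟨AddMonoidHom.toMultiplicativeRight (f : Additive A →+ ZMod 2), fun b hb => ?_,
    fun h => hf ?_⟩
  · have h1 : f (Additive.ofMul b) = 0 := hfB ((hB' _).2 hb)
    exact congrArg Multiplicative.ofAdd h1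
  · exact congrArg Multiplicative.toAdd h

/-- the homomorphism `ℤ/2 → H` given by an involution -/
theorem exists_ofInvol {H : Type} [Group H] (s : H) (hs : s * s = 1) :
    ∃ ψ : Multiplicative (ZMod 2) →* H, (∀ z, ψ z = 1 ∨ ψ z = s) ∧
      ∀ z, z ≠ 1 → ψ z = s := by
  have key : ∀ z : Multiplicative (ZMod 2), z = 1 ∨ z = Multiplicative.ofAdd 1 := by
    decide
  have hne : (Multiplicative.ofAdd (1 : ZMod 2)) ≠ 1 := by decide
  let f : Multiplicative (ZMod 2) → H := fun z => if z = 1 then 1 else s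
  have hmul : ∀ a b, f (a * b) = f a * f b := by
    intro a b
    rcases key a with rfl | rfl <;> rcases key b with rfl | rfl
    · simp [f]
    · simp [f]
    · simp [f]
    · have h1 : (Multiplicative.ofAdd (1 : ZMod 2)) * Multiplicative.ofAdd 1 = 1 := by decide
      rw [h1]
      simp only [f, if_true, if_neg hne]
      exact hs.symm
  refine ⟨MonoidHom.mk' f hmul, fun z => ?_, fun z hz => ?_⟩
  · change f z = 1 ∨ f z = s
    simp only [f]
    split_ifs
    · exact Or.inl rfl
    · exact Or.inr rfl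
  · change f z = s
    simp only [f, if_neg hz]

/-- a homomorphism to a group with an involution `s` which kills `B` and maps `x` to `s` -/
theorem exists_invol {A H : Type} [CommGroup A] [Group H] (hA : ∀ a : A, a * a = 1)
    (B : Subgroup A) (x : A) (hx : x ∉ B) (s : H) (hs : s * s = 1) :
    ∃ φ : A →* H, (∀ b ∈ B, φ b = 1) ∧ φ x = s ∧ ∀ a, φ a = 1 ∨ φ a = s := by
  obtain ⟨φ, h1, h2⟩ := exists_func hA B hx
  obtain ⟨ψ, h3, h4⟩ := exists_ofInvol s hs
  refine ⟨ψ.comp φ, fun b hb => ?_, h4 _ h2, fun a => h3 _⟩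
  rw [MonoidHom.comp_apply, h1 b hb, map_one]

end Vale.Agent.P173.B1
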