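import Vale.Agent.Lib.P173.B1.Ops

/-!
# P173 B1: closed sets are good
-/

namespace Vale.Agent.P173.B1

variable {K : ColGraph} {A : Type} [CommGroup A] {X : TwoComplex} (D : Data K A X)

private theorem filterMap_projA (l : List A) :
    (l.map (inA (X := X))).filterMap (projA (A := A) (X := X)) = l := by
  induction l with
  | nil => rfl
  | cons a l ih =>
    have e : (inA (X := X) a :: l.map (inA (X := X))).filterMap (projA (A := A) (X := X)) =
        a :: (l.map (inA (X := X))).filterMap (projA (A := A) (X := X)) := rfl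
    rw [List.map_cons, e, ih]

private theorem filterMap_projE (l : List X.E) :
    (l.map (inE (A := A))).filterMap (projE (A := A) (X := X)) = l := by
  induction l with
  | nil => rfl
  | cons a l ih =>
    have e : (inE (A := A) a :: l.map (inE (A := A))).filterMap (projE (A := A) (X := X)) =
        a :: (l.map (inE (A := A))).filterMap (projE (A := A) (X := X)) := rfl
    rw [List.map_cons, e, ih]

private theorem zip_self {α β : Type} (l : List (α × β)) :
    (l.map Prod.fst).zip (l.map Prod.snd) = l := by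
  induction l with
  | nil => rfl
  | cons a l ih =>
    rw [List.map_cons, List.map_cons, List.zip_cons_cons, ih]

theorem good_of_closed {M : Set (Om A X)} (h : Closed (FF D) M) : Good D M := by
  have h1 : ∀ l : List (Om A X), (∀ y ∈ l, y ∈ M) → ∀ y ∈ op1 D l, y ∈ M :=
    fun l hl y hy => h l hl (Or.inl (Or.inl (Or.inl hy)))
  have h2 : ∀ l : List (Om A X), (∀ y ∈ l, y ∈ M) → ∀ y ∈ op2 D l, y ∈ M :=
    fun l hl y hy => h l hl (Or.inl (Or.inl (Or.inr hy)))
  have h3 : ∀ l : List (Om A X), (∀ y ∈ l, y ∈ M) → ∀ y ∈ op3 D l, y ∈ M :=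
    fun l hl y hy => h l hl (Or.inl (Or.inr hy))
  have h4 : ∀ l : List (Om A X), (∀ y ∈ l, y ∈ M) → ∀ y ∈ op4 D l, y ∈ M :=
    fun l hl y hy => h l hl (Or.inr hy)
  have l0 : ∀ y ∈ ([] : List (Om A X)), y ∈ M := fun y hy => absurd hy List.not_mem_nil
  have l1 : ∀ z : Om A X, z ∈ M → ∀ y ∈ [z], y ∈ M := by
    intro z hz y hy
    rw [List.mem_singleton] at hy
    rw [hy]
    exact hz
  have l2 : ∀ z z' : Om A X, z ∈ M → z' ∈ M → ∀ y ∈ [z, z'], y ∈ M := by
    intro z z' hz hz' y hy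
    rw [List.mem_cons, List.mem_singleton] at hy
    rcases hy with hy | hy
    · rw [hy]; exact hz
    · rw [hy]; exact hz'
  have hone : inA 1 ∈ M := h1 [] l0 _ (Or.inl (Or.inl (Or.inl ⟨rfl, Or.inl rfl⟩)))
  have hmul : ∀ a b : A, inA (X := X) a ∈ M → inA (X := X) b ∈ M → inA (X := X) (a * b) ∈ M :=
    fun a b ha hb => h1 [inA a, inA b] (l2 _ _ ha hb) _ (Or.inl (Or.inl (Or.inr ⟨a, b, rfl, rfl⟩)))
  have hinv : ∀ a : A, inA (X := X) a ∈ M → inA (X := X) a⁻¹ ∈ M :=
    fun a ha => h1 [inA a] (l1 _ ha) _ (Or.inl (Or.inr ⟨a, rfl, rfl⟩))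
  let S : Subgroup A :=
    { carrier := {a | inA (X := X) a ∈ M}
      mul_mem' := fun {a b} ha hb => hmul a b ha hb
      one_mem' := hone
      inv_mem' := fun {a} ha => hinv a ha }
  have hword : ∀ g : K.G A, K.incl A g ∈ K.wsub A Set.univ {a | inA (X := X) a ∈ M} →
      ∃ l : List (K.V × A), (∀ c ∈ l, inA (X := X) c.2 ∈ M) ∧ K.incl A g = wordL K A l :=
    fun g hg => (mem_wsub_iff K A S (K.incl A g)).1 hg
  have hact : ∀ g : K.G A, K.incl A g ∈ K.wsub A Set.univ {a | inA (X := X) a ∈ M} →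
      ∀ z ∈ M, ∃ (us : List K.V) (r : List (Om A X)), (∀ y ∈ z :: r, y ∈ M) ∧
        K.incl A g = wordL K A (us.zip (r.filterMap projA)) := by
    intro g hg z hz
    obtain ⟨l, hl, hgl⟩ := hword g hg
    refine ⟨l.map Prod.fst, (l.map Prod.snd).map inA, ?_, ?_⟩
    · intro y hy
      rw [List.mem_cons] at hy
      rcases hy with hy | hy
      · rw [hy]; exact hz
      · rw [List.map_map, List.mem_map] at hy
        obtain ⟨c, hc, rfl⟩ := hy
        exact hl c hc
    · rw [filterMap_projA, zip_self]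
      exact hgl
  refine
    { one := hone
      mul := hmul
      inv := hinv
      base := h1 [] l0 _ (Or.inl (Or.inl (Or.inl ⟨rfl, Or.inr rfl⟩)))
      rep := fun x hx => h1 [inV x] (l1 _ hx) _ (Or.inr ⟨x, rfl, Or.inl rfl⟩)
      gel := ?_
      actV := ?_
      actE := ?_
      actF := ?_
      src := fun e he => h2 [inE e] (l1 _ he) _ (Or.inl (Or.inl ⟨e, rfl, Or.inl rfl⟩))
      tgt := fun e he => h2 [inE e] (l1 _ he) _ (Or.inl (Or.inl ⟨e, rfl, Or.inr rfl⟩))
      fbase := fun f hf => h2 [inF f] (l1 _ hf) _ (Or.inl (Or.inr ⟨f, rfl, Or.inl rfl⟩))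
      bd := fun f hf eb heb =>
        h2 [inF f] (l1 _ hf) _ (Or.inl (Or.inr ⟨f, rfl, Or.inr ⟨eb, heb, rfl⟩⟩))
      path := fun x y hx hy eb heb =>
        h2 [inV x, inV y] (l2 _ _ hx hy) _ (Or.inr ⟨x, y, rfl, eb, heb, rfl⟩)
      faces := ?_ }
  · intro x hx
    refine (mem_wsub_iff K A S (K.incl A (D.gel x))).2 ⟨D.wd (D.gel x), ?_, D.wd_eq _⟩
    intro c hc
    exact h1 [inV x] (l1 _ hx) _ (Or.inr ⟨x, rfl, Or.inr ⟨c, hc, rfl⟩⟩)
  · intro g x hg hx
    obtain ⟨us, r, hr, hgr⟩ := hact g hg _ hx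
    exact h3 (inV x :: r) hr _ (Set.mem_iUnion.2 ⟨us, inV x, r, rfl, g, hgr,
      Or.inl ⟨x, rfl, rfl⟩⟩)
  · intro g x hg hx
    obtain ⟨us, r, hr, hgr⟩ := hact g hg _ hx
    exact h3 (inE x :: r) hr _ (Set.mem_iUnion.2 ⟨us, inE x, r, rfl, g, hgr,
      Or.inr (Or.inl ⟨x, rfl, rfl⟩)⟩)
  · intro g x hg hx
    obtain ⟨us, r, hr, hgr⟩ := hact g hg _ hx
    exact h3 (inF x :: r) hr _ (Set.mem_iUnion.2 ⟨us, inF x, r, rfl, g, hgr,
      Or.inr (Or.inr ⟨x, rfl, rfl⟩)⟩)
  · intro x p hx hp f hf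
    refine h4 (inV x :: (p.map Prod.fst).map inE) ?_ _ (Set.mem_iUnion.2 ⟨p.map Prod.snd, x,
      (p.map Prod.fst).map inE, rfl, f, ?_, rfl⟩)
    · intro y hy
      rw [List.mem_cons] at hy
      rcases hy with hy | hy
      · rw [hy]; exact hx
      · rw [List.map_map, List.mem_map] at hy
        obtain ⟨c, hc, rfl⟩ := hy
        exact hp c hc
    · rw [filterMap_projE, zip_self]
      exact hf

end Vale.Agent.P173.B1
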