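import Vale.Agent.Lib.P173.B1.Cover
import Vale.Agent.Lib.P173.B1.OpsG
import Vale.Agent.Lib.P173.B1.Free3

/-!
# P173 B1: the good cover

`x` a free triple, `M i = cl {x_j : j ≠ i}`. If `K.V` is empty the cover is trivial. Otherwise fix a triangle
`T₀` (`Pure`), `g_T = σ_{T₀}⁻¹ σ_T ∈ G` (`pi_sig`). `Y v = g_T (X ∩ M (col v))` for a chosen triangle `T` containing
`v`; independent of `T` by `Ysub_eq` and `sig_inv_mul_mem` (`g_T⁻¹ g_T' = σ_T⁻¹ σ_T'`). `disj`: `Ysub_meet` and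
`sig_disj`. `inter`: a triangle containing both vertices, `Ysub_inter`. `tri`: `x = g_T x₀`.
-/

namespace Vale.Agent.P173.B1

open Cardinal

variable {K : ColGraph} {A : Type} [CommGroup A] {X : TwoComplex}

/-- `g_T` -/
theorem exists_gT (T₀ T : K.Tri) (x : Fin 3 → A) :
    ∃ g : K.G A, K.incl A g = (sig T₀ x)⁻¹ * sig T x := by
  refine ⟨⟨(sig T₀ x)⁻¹ * sig T x, ?_⟩, rfl⟩
  rw [MonoidHom.mem_ker, map_mul, map_inv, pi_sig, pi_sig, inv_mul_cancel]

theorem exists_goodCover [Countable K.V] (hP : K.Pure) (h2 : ∀ a : A, a * a = 1)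
    (hA : aleph 3 ≤ #A) (hc : X.IsConn) (hs : X.IsSimplyConn) (act : FreeAct (K.G A) X) :
    Nonempty (GoodCover K X) := by
  classical
  rcases isEmpty_or_nonempty K.V with he | ⟨⟨v₀⟩⟩
  · exact ⟨{
      Y := fun v => isEmptyElim v
      conn := fun v => isEmptyElim v
      sc := fun v => isEmptyElim v
      disj := fun v => isEmptyElim v
      inter := fun v => isEmptyElim v
      tri := fun T => isEmptyElim (T.t 0) }⟩
  obtain ⟨D, -⟩ := exists_data act hc hs
  obtain ⟨x, hx⟩ := exists_free3 (FF D) (FF_countable D) (fun a : A => (inA a : Om A X))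
    Sum.inl_injective hA
  -- the three closed sets
  obtain ⟨M, hM⟩ : ∃ M : Fin 3 → Set (Om A X), ∀ i, M i =
      cl (FF D) ((fun a : A => (inA a : Om A X)) '' {a | ∃ j, j ≠ i ∧ a = x j}) := ⟨_, fun i => rfl⟩
  have hMc : ∀ i, Closed (FF D) (M i) := fun i => by
    rw [hM]
    exact closed_cl _ _
  have hG : ∀ i, Good D (M i) := fun i => good_of_closed D (hMc i)
  have hxM : ∀ i, (inA (x i) : Om A X) ∉ M i := fun i => by
    rw [hM]
    exact hx i
  have hxM' : ∀ i j, j ≠ i → (inA (x j) : Om A X) ∈ M i := fun i j hj => by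
    rw [hM]
    exact subset_cl _ _ ⟨x j, ⟨j, hj, rfl⟩, rfl⟩
  -- the translating elements
  obtain ⟨T₀, -⟩ := hP.1 v₀
  choose gT hgT using fun T : K.Tri => exists_gT T₀ T x
  have hgg : ∀ T T' : K.Tri, K.incl A ((gT T)⁻¹ * gT T') = (sig T x)⁻¹ * sig T' x := by
    intro T T'
    rw [map_mul, map_inv, hgT, hgT]
    group
  choose TT hTT using hP.1
  let Y : K.V → Sub X := fun v => Ysub (hG (K.col v)) (gT (TT v))
  have hY : ∀ (v : K.V) (T : K.Tri), T.t (K.col v) = v → Y v = Ysub (hG (K.col v)) (gT T) := by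
    intro v T hT
    refine Ysub_eq (hG (K.col v)) _ _ ?_
    rw [hgg]
    exact sig_inv_mul_mem (TT v) T x (K.col v) ((hTT v).trans hT.symm) (hG (K.col v)).sub
      fun j hj => hxM' _ j hj
  refine ⟨{
    Y := Y
    conn := fun v => Ysub_conn _ _
    sc := fun v => Ysub_sc _ _
    disj := ?_
    inter := ?_
    tri := ?_ }⟩
  · intro v w z hvw hadj h1 h3
    obtain ⟨a, ha, b, hb, hab⟩ := Ysub_meet (hG (K.col v)) (hG (K.col w)) (gT (TT v)) (gT (TT w)) z
      h1 h3
    rw [hgg] at hab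
    refine sig_disj h2 (TT v) (TT w) x (K.col v) (K.col w) ?_ ?_ (hG (K.col v)).sub
      (hG (K.col w)).sub (hxM _) (hxM _) a b ha hb hab
    · rw [hTT, hTT]
      exact hvw
    · rw [hTT, hTT]
      exact hadj
  · intro v w hadj
    obtain ⟨T, hTv, hTw⟩ := hP.2 v w hadj
    rw [hY v T hTv, hY w T hTw, Ysub_inter (hG (K.col v)) (hG (K.col w))
      (good_of_closed D (closed_inter _ (hMc _) (hMc _))) (gT T)]
    exact Ysub_conn _ _
  · intro T
    refine ⟨D.act.aV (gT T) D.x0, fun i => ?_⟩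
    rw [hY (T.t i) T (by rw [T.col_eq])]
    show (inV (D.act.aV (gT T)⁻¹ (D.act.aV (gT T) D.x0)) : Om A X) ∈ M (K.col (T.t i))
    rw [aV_inv_cancel]
    exact (hG _).base

end Vale.Agent.P173.B1
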