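import Vale.Agent.Lib.P173.B1.Sig
import Vale.Agent.Lib.P173.B1.Func

/-!
# P173 B1: the retraction to `S₃`
-/

namespace Vale.Agent.P173.B1

open scoped Classical

variable {K : ColGraph} {A : Type} [CommGroup A]

private theorem Retr_hom {v w : K.V} (hvw : v ≠ w) (h : ¬ K.adj v w) {H : Type} [Group H]
    (φ ψ : A →* H) :
    ∃ ρ : K.W A →* H,
      (∀ a, ρ (K.of A v a) = φ a) ∧ (∀ a, ρ (K.of A w a) = ψ a) ∧
      ∀ u a, u ≠ v → u ≠ w → ρ (K.of A u a) = 1 := by
  have h' : ¬ K.adj w v := fun h1 => h (K.symm _ _ h1)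
  obtain ⟨F, hF⟩ := K.exists_lift A (fun u => if u = v then φ else if u = w then ψ else 1) (by
    intro a b hab p q
    by_cases h1 : a = v
    · by_cases h2 : b = v
      · subst h1
        subst h2
        exact absurd rfl (K.ne_of_adj hab)
      · by_cases h3 : b = w
        · subst h1
          subst h3
          exact absurd hab h
        · rw [if_neg h2, if_neg h3]
          exact Commute.one_right _
    · by_cases h2 : a = w
      · by_cases h3 : b = v
        · subst h2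
          subst h3
          exact absurd hab h'
        · by_cases h4 : b = w
          · subst h2
            subst h4
            exact absurd rfl (K.ne_of_adj hab)
          · rw [if_neg h3, if_neg h4]
            exact Commute.one_right _
      · rw [if_neg h1, if_neg h2]
        exact Commute.one_left _)
  refine ⟨F, fun a => ?_, fun a => ?_, fun u a h1 h2 => ?_⟩
  · rw [hF, if_pos rfl]
  · rw [hF, if_neg hvw.symm, if_pos rfl]
  · rw [hF, if_neg h1, if_neg h2]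
    rfl

/-- the homomorphism to `S₃` -/
theorem exists_retr {v w : K.V} (hvw : v ≠ w) (h : ¬ K.adj v w)
    (f g : A →* Multiplicative (ZMod 2)) :
    ∃ ρ : K.W A →* Equiv.Perm (Fin 3),
      (∀ a, ρ (K.of A v a) = if f a = 1 then 1 else Equiv.swap 0 1) ∧
      (∀ a, ρ (K.of A w a) = if g a = 1 then 1 else Equiv.swap 1 2) ∧
      ∀ u a, u ≠ v → u ≠ w → ρ (K.of A u a) = 1 := by
  obtain ⟨φ, hφ, hφ'⟩ := exists_ofInvol (Equiv.swap (0 : Fin 3) 1) (by decide)
  obtain ⟨ψ, hψ, hψ'⟩ := exists_ofInvol (Equiv.swap (1 : Fin 3) 2) (by decide)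
  obtain ⟨ρ, h1, h2, h3⟩ := Retr_hom hvw h (φ.comp f) (ψ.comp g)
  refine ⟨ρ, fun a => ?_, fun a => ?_, h3⟩
  · rw [h1, MonoidHom.comp_apply]
    split_ifs with h4
    · rw [h4, map_one]
    · exact hφ' _ h4
  · rw [h2, MonoidHom.comp_apply]
    split_ifs with h4
    · rw [h4, map_one]
    · exact hψ' _ h4

private theorem Retr_sig {H : Type} [Group H] (F : K.W A →* H) (x : Fin 3 → A) (T : K.Tri)
    (i : Fin 3) (hF : ∀ j, j ≠ i → F (K.of A (T.t j) (x j)) = 1) :
    F (sig T x) = F (K.of A (T.t i) (x i)) := by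
  obtain ⟨j, k, hj, hk, h1⟩ := sig_eq (K := K) x i
  rw [h1, map_mul, map_mul, hF j hj, hF k hk, mul_one, mul_one]

private theorem Retr_zp (s : Equiv.Perm (Fin 3)) (hs : s * s = 1) (y : Equiv.Perm (Fin 3))
    (hy : y ∈ Subgroup.zpowers s) : y = 1 ∨ y = s := by
  obtain ⟨m, rfl⟩ := Subgroup.mem_zpowers_iff.1 hy
  rcases Int.even_or_odd' m with ⟨c, rfl | rfl⟩
  · left
    rw [zpow_mul, zpow_two, hs, one_zpow]
  · right
    rw [zpow_add, zpow_mul, zpow_two, hs, one_zpow, one_mul, zpow_one]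

private theorem Retr_im {v w : K.V} (B : Subgroup A) (F : K.W A →* Equiv.Perm (Fin 3))
    (t : Equiv.Perm (Fin 3)) (ht : t * t = 1) (hv : ∀ b ∈ B, F (K.of A v b) = 1)
    (hw : ∀ b, F (K.of A w b) = 1 ∨ F (K.of A w b) = t)
    (ho : ∀ u b, u ≠ v → u ≠ w → F (K.of A u b) = 1) {y : K.W A}
    (hy : y ∈ K.wsub A Set.univ (B : Set A)) : F y = 1 ∨ F y = t := by
  have h0 : K.wsub A Set.univ (B : Set A) ≤ (Subgroup.zpowers t).comap F := by
    refine (Subgroup.closure_le _).2 ?_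
    rintro _ ⟨u, -, b, hb, rfl⟩
    rw [SetLike.mem_coe, Subgroup.mem_comap]
    by_cases h2 : u = v
    · rw [h2, hv b hb]
      exact Subgroup.one_mem _
    · by_cases h3 : u = w
      · rw [h3]
        rcases hw b with h4 | h4
        · rw [h4]
          exact Subgroup.one_mem _
        · rw [h4]
          exact Subgroup.mem_zpowers t
      · rw [ho u b h2 h3]
        exact Subgroup.one_mem _
  exact Retr_zp t ht _ (h0 hy)

/-- `f` kills `Bi`, `f (x i) ≠ 1`, `g` kills `Bj`, `g (x j) ≠ 1` (`exists_func`); `ρ (σ_T) = s` (the other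
vertices of `T` are adjacent to `v`, so `≠ w`), `ρ (σ_T') = t`; `ρ (a) ∈ {1, t}`, `ρ (b) ∈ {1, s}`;
`s t ∉ {1, t, s, t s}`. -/
theorem sig_disj (h2 : ∀ a : A, a * a = 1) (T T' : K.Tri) (x : Fin 3 → A) (i j : Fin 3)
    (hvw : T.t i ≠ T'.t j) (hadj : ¬ K.adj (T.t i) (T'.t j)) (Bi Bj : Subgroup A)
    (hi : x i ∉ Bi) (hj : x j ∉ Bj) (a b : K.W A) (ha : a ∈ K.wsub A Set.univ (Bi : Set A))
    (hb : b ∈ K.wsub A Set.univ (Bj : Set A)) : (sig T x)⁻¹ * sig T' x ≠ a * b := by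
  obtain ⟨v, hv⟩ : ∃ v, v = T.t i := ⟨_, rfl⟩
  obtain ⟨w, hw⟩ : ∃ w, w = T'.t j := ⟨_, rfl⟩
  rw [← hv, ← hw] at hvw hadj
  have hadj' : ¬ K.adj w v := fun h => hadj (K.symm _ _ h)
  have hTw : ∀ l, T.t l ≠ w := by
    intro l hl
    by_cases h : i = l
    · rw [← h, ← hv] at hl
      exact hvw hl
    · have h1 := T.adj i l h
      rw [hl, ← hv] at h1
      exact hadj h1
  have hT'v : ∀ l, T'.t l ≠ v := by
    intro l hl
    by_cases h : j = l
    · rw [← h, ← hw] at hl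
      exact hvw hl.symm
    · have h1 := T'.adj j l h
      rw [hl, ← hw] at h1
      exact hadj' h1
  have hTv : ∀ l, l ≠ i → T.t l ≠ v := by
    intro l hl h
    apply hl
    rw [← T.col_eq l, ← T.col_eq i, h, hv]
  have hT'w : ∀ l, l ≠ j → T'.t l ≠ w := by
    intro l hl h
    apply hl
    rw [← T'.col_eq l, ← T'.col_eq j, h, hw]
  let s : Equiv.Perm (Fin 3) := Equiv.swap 0 1
  let t : Equiv.Perm (Fin 3) := Equiv.swap 1 2
  have hs : s * s = 1 := by decide
  have ht : t * t = 1 := by decide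
  obtain ⟨φ, hφ1, hφ2, hφ3⟩ := exists_invol h2 Bi (x i) hi s hs
  obtain ⟨ψ, hψ1, hψ2, hψ3⟩ := exists_invol h2 Bj (x j) hj t ht
  obtain ⟨F, hFv, hFw, hFo⟩ := Retr_hom hvw hadj φ ψ
  have hkα : F a = 1 ∨ F a = t := Retr_im (v := v) (w := w) Bi F t ht
    (fun c hc => by rw [hFv, hφ1 c hc]) (fun c => by rw [hFw]; exact hψ3 c) hFo ha
  have hkβ : F b = 1 ∨ F b = s := Retr_im (v := w) (w := v) Bj F s hs
    (fun c hc => by rw [hFw, hψ1 c hc]) (fun c => by rw [hFv]; exact hφ3 c)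
    (fun u c h3 h4 => hFo u c h4 h3) hb
  intro heq
  have h1 := congrArg F heq
  rw [map_mul, map_mul, map_inv,
    Retr_sig F x T i (fun l hl => hFo _ _ (hTv l hl) (hTw l)),
    Retr_sig F x T' j (fun l hl => hFo _ _ (hT'v l) (hT'w l hl)), ← hv, ← hw, hFv, hFw, hφ2,
    hψ2] at h1
  have hfin : s⁻¹ * t ≠ 1 ∧ s⁻¹ * t ≠ s ∧ s⁻¹ * t ≠ t ∧ s⁻¹ * t ≠ t * s := by decide
  rcases hkα with h3 | h3 <;> rcases hkβ with h4 | h4 <;> rw [h3, h4] at h1
  · exact hfin.1 (by rw [h1, mul_one])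
  · exact hfin.2.1 (by rw [h1, one_mul])
  · exact hfin.2.2.1 (by rw [h1, mul_one])
  · exact hfin.2.2.2 h1

end Vale.Agent.P173.B1
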