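import Vale.Agent.Lib.P173.B1.Clo
import Vale.Agent.Lib.P173.B1.Retr
import Vale.Agent.Lib.P173.B1.Faces

/-!
# P173 B1: the closure operations on `Ω = A ⊕ V ⊕ E ⊕ F`
-/

namespace Vale.Agent.P173.B1

variable {K : ColGraph} {A : Type} [CommGroup A] {X : TwoComplex}

/-- the chosen data -/
structure Data (K : ColGraph) (A : Type) [CommGroup A] (X : TwoComplex) where
  act : FreeAct (K.G A) X
  x0 : X.V
  rep : X.V → X.V
  gel : X.V → K.G A
  rep_eq : ∀ x, act.aV (gel x) (rep x) = x
  rep_orb : ∀ g x, rep (act.aV g x) = rep x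
  wd : K.G A → List (K.V × A)
  wd_eq : ∀ g, K.incl A g = wordL K A (wd g)
  path : X.V → X.V → List (X.E × Bool)
  path_eq : ∀ x y, X.Path x (path x y) y
  faces : X.V → List (X.E × Bool) → Finset X.F
  faces_eq : ∀ x p, X.Path x p x → ∀ (H : Type) [Group H] (c : X.E → H),
    (∀ f ∈ faces x p, hol c (X.bd f) = 1) → hol c p = 1

theorem exists_data (act : FreeAct (K.G A) X) (hc : X.IsConn) (hs : X.IsSimplyConn) :
    ∃ D : Data K A X, D.act = act := by
  classical
  obtain ⟨rep, gel, h1, h2⟩ := exists_rep act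
  have hw : ∀ g : K.G A, ∃ l : List (K.V × A), K.incl A g = wordL K A l :=
    fun g => exists_word K A _
  choose wd hwd using hw
  choose path hpath using hc.2
  have hf : ∀ (x : X.V) (p : List (X.E × Bool)), ∃ S : Finset X.F, X.Path x p x →
      ∀ (H : Type) [Group H] (c : X.E → H), (∀ f ∈ S, hol c (X.bd f) = 1) → hol c p = 1 := by
    intro x p
    by_cases h : X.Path x p x
    · obtain ⟨S, hS⟩ := exists_faces X hs x p h
      exact ⟨S, fun _ => hS⟩
    · exact ⟨∅, fun h' => absurd h' h⟩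
  choose faces hfaces using hf
  exact ⟨{ act := act
           x0 := hc.1.some
           rep := rep
           gel := gel
           rep_eq := h1
           rep_orb := h2
           wd := wd
           wd_eq := hwd
           path := path
           path_eq := hpath
           faces := faces
           faces_eq := hfaces }, rfl⟩

/-- the universe -/
abbrev Om (A : Type) (X : TwoComplex) : Type := A ⊕ X.V ⊕ X.E ⊕ X.F

abbrev inA (a : A) : Om A X := Sum.inl a
abbrev inV (x : X.V) : Om A X := Sum.inr (Sum.inl x)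
abbrev inE (e : X.E) : Om A X := Sum.inr (Sum.inr (Sum.inl e))
abbrev inF (f : X.F) : Om A X := Sum.inr (Sum.inr (Sum.inr f))

def projA : Om A X → Option A
  | Sum.inl a => some a
  | _ => none

def projE : Om A X → Option X.E
  | Sum.inr (Sum.inr (Sum.inl e)) => some e
  | _ => none

variable (D : Data K A X)

/-- group operations, base point, representatives, letters of `gel x` -/
def op1 (l : List (Om A X)) : Set (Om A X) :=
  {y | l = [] ∧ (y = inA 1 ∨ y = inV D.x0)} ∪
  {y | ∃ a b, l = [inA a, inA b] ∧ y = inA (a * b)} ∪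
  {y | ∃ a, l = [inA a] ∧ y = inA a⁻¹} ∪
  {y | ∃ x, l = [inV x] ∧ (y = inV (D.rep x) ∨ ∃ c ∈ D.wd (D.gel x), y = inA c.2)}

/-- incidence -/
def op2 (l : List (Om A X)) : Set (Om A X) :=
  {y | ∃ e, l = [inE e] ∧ (y = inV (X.src e) ∨ y = inV (X.tgt e))} ∪
  {y | ∃ f, l = [inF f] ∧ (y = inV (X.base f) ∨ ∃ eb ∈ X.bd f, y = inE eb.1)} ∪
  {y | ∃ x x', l = [inV x, inV x'] ∧ ∃ eb ∈ D.path x x', y = inE eb.1}

/-- the action of words; the countable parameter is the list of the vertices of `K` -/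
def op3 (l : List (Om A X)) : Set (Om A X) :=
  ⋃ us : List K.V, {y | ∃ z r, l = z :: r ∧ ∃ g : K.G A,
    K.incl A g = wordL K A (us.zip (r.filterMap projA)) ∧
    ((∃ x, z = inV x ∧ y = inV (D.act.aV g x)) ∨ (∃ x, z = inE x ∧ y = inE (D.act.aE g x)) ∨
      ∃ x, z = inF x ∧ y = inF (D.act.aF g x))}

/-- faces needed for the null homotopy of a closed path; the countable parameter is the list of signs -/
def op4 (l : List (Om A X)) : Set (Om A X) :=
  ⋃ bs : List Bool, {y | ∃ x r, l = inV x :: r ∧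
    ∃ f ∈ D.faces x ((r.filterMap projE).zip bs), y = inF f}

/-- all operations -/
def FF (l : List (Om A X)) : Set (Om A X) := op1 D l ∪ op2 D l ∪ op3 D l ∪ op4 D l

private theorem Ops_c1 (l : List (Om A X)) : (op1 D l).Countable := by
  classical
  unfold op1
  refine (((?_ : Set.Countable _).union ?_).union ?_).union ?_
  · exact (Set.toFinite ({inA 1, inV D.x0} : Set (Om A X))).countable.mono (by
      rintro y ⟨-, h | h⟩ <;> simp [h])
  · rcases l with _ | ⟨z, _ | ⟨z', _ | ⟨z'', r⟩⟩⟩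
    · exact Set.countable_empty.mono (by rintro y ⟨a, b, h, -⟩; simp at h)
    · exact Set.countable_empty.mono (by rintro y ⟨a, b, h, -⟩; simp at h)
    · refine Set.Subsingleton.countable ?_
      rintro y ⟨a, b, h, rfl⟩ y' ⟨a', b', h', rfl⟩
      rw [h] at h'
      simp only [List.cons.injEq, Sum.inl.injEq, and_true] at h'
      rw [h'.1, h'.2]
    · exact Set.countable_empty.mono (by rintro y ⟨a, b, h, -⟩; simp at h)
  · refine Set.Subsingleton.countable ?_
    rintro y ⟨a, h, rfl⟩ y' ⟨a', h', rfl⟩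
    rw [h] at h'
    simp only [List.cons.injEq, Sum.inl.injEq, and_true] at h'
    rw [h']
  · by_cases hx : ∃ x : X.V, l = [inV x]
    · obtain ⟨x, rfl⟩ := hx
      refine ((Set.countable_singleton (inV (D.rep x) : Om A X)).union
        ((D.wd (D.gel x)).map fun c => (inA c.2 : Om A X)).toFinset.countable_toSet).mono ?_
      rintro y ⟨x', h, h2⟩
      simp only [List.cons.injEq, Sum.inr.injEq, Sum.inl.injEq, and_true] at h
      subst h
      rcases h2 with rfl | ⟨c, hc, rfl⟩
      · exact Or.inl rfl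
      · refine Or.inr ?_
        simp only [Finset.mem_coe, List.mem_toFinset, List.mem_map]
        exact ⟨c, hc, rfl⟩
    · exact Set.countable_empty.mono (by rintro y ⟨x, h, -⟩; exact absurd ⟨x, h⟩ hx)

private theorem Ops_c2 (l : List (Om A X)) : (op2 D l).Countable := by
  classical
  unfold op2
  refine ((?_ : Set.Countable _).union ?_).union ?_
  · by_cases hx : ∃ e : X.E, l = [inE e]
    · obtain ⟨e, rfl⟩ := hx
      refine (Set.toFinite ({inV (X.src e), inV (X.tgt e)} : Set (Om A X))).countable.mono ?_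
      rintro y ⟨x', h, h2⟩
      simp only [List.cons.injEq, Sum.inr.injEq, Sum.inl.injEq, and_true] at h
      subst h
      rcases h2 with rfl | rfl <;> simp
    · exact Set.countable_empty.mono (by rintro y ⟨x, h, -⟩; exact absurd ⟨x, h⟩ hx)
  · by_cases hx : ∃ f : X.F, l = [inF f]
    · obtain ⟨f, rfl⟩ := hx
      refine ((Set.countable_singleton (inV (X.base f) : Om A X)).union
        ((X.bd f).map fun c => (inE c.1 : Om A X)).toFinset.countable_toSet).mono ?_
      rintro y ⟨x', h, h2⟩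
      simp only [List.cons.injEq, Sum.inr.injEq, and_true] at h
      subst h
      rcases h2 with rfl | ⟨c, hc, rfl⟩
      · exact Or.inl rfl
      · refine Or.inr ?_
        simp only [Finset.mem_coe, List.mem_toFinset, List.mem_map]
        exact ⟨c, hc, rfl⟩
    · exact Set.countable_empty.mono (by rintro y ⟨x, h, -⟩; exact absurd ⟨x, h⟩ hx)
  · by_cases hx : ∃ x x' : X.V, l = [inV x, inV x']
    · obtain ⟨x, x', rfl⟩ := hx
      refine (((D.path x x').map fun c => (inE c.1 : Om A X)).toFinset.countable_toSet).mono ?_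
      rintro y ⟨z, z', h, c, hc, rfl⟩
      simp only [List.cons.injEq, Sum.inr.injEq, Sum.inl.injEq, and_true] at h
      obtain ⟨rfl, rfl⟩ := h
      simp only [Finset.mem_coe, List.mem_toFinset, List.mem_map]
      exact ⟨c, hc, rfl⟩
    · exact Set.countable_empty.mono (by rintro y ⟨x, x', h, -⟩; exact absurd ⟨x, x', h⟩ hx)

private theorem Ops_c3 [Countable K.V] (l : List (Om A X)) : (op3 D l).Countable := by
  unfold op3
  refine Set.countable_iUnion fun us => ?_
  refine Set.Subsingleton.countable ?_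
  rintro y ⟨z, r, hl, g, hg, h⟩ y' ⟨z', r', hl', g', hg', h'⟩
  rw [hl] at hl'
  rw [List.cons.injEq] at hl'
  obtain ⟨rfl, rfl⟩ := hl'
  have hgg : g = g' := by
    have h1 : K.incl A g = K.incl A g' := hg.trans hg'.symm
    exact Subtype.ext h1
  subst hgg
  rcases h with ⟨x, rfl, rfl⟩ | ⟨x, rfl, rfl⟩ | ⟨x, rfl, rfl⟩ <;>
  rcases h' with ⟨x', h1, rfl⟩ | ⟨x', h1, rfl⟩ | ⟨x', h1, rfl⟩ <;>
  simp_all

private theorem Ops_c4 (l : List (Om A X)) : (op4 D l).Countable := by
  classical
  unfold op4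
  refine Set.countable_iUnion fun bs => ?_
  by_cases hx : ∃ (x : X.V) (r : List (Om A X)), l = inV x :: r
  · obtain ⟨x, r, rfl⟩ := hx
    refine (((D.faces x ((r.filterMap projE).zip bs)).image
      fun f => (inF f : Om A X)).countable_toSet).mono ?_
    rintro y ⟨x', r', h, f, hf, rfl⟩
    simp only [List.cons.injEq, Sum.inr.injEq, Sum.inl.injEq] at h
    obtain ⟨rfl, rfl⟩ := h
    simp only [Finset.mem_coe, Finset.mem_image]
    exact ⟨f, hf, rfl⟩
  · exact Set.countable_empty.mono (by rintro y ⟨x, r, h, -⟩; exact absurd ⟨x, r, h⟩ hx)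

theorem FF_countable [Countable K.V] (l : List (Om A X)) : (FF D l).Countable :=
  (((Ops_c1 D l).union (Ops_c2 D l)).union (Ops_c3 D l)).union (Ops_c4 D l)

/-- the properties of closed sets -/
structure Good (M : Set (Om A X)) : Prop where
  one : inA 1 ∈ M
  mul : ∀ a b, inA a ∈ M → inA b ∈ M → inA (a * b) ∈ M
  inv : ∀ a, inA a ∈ M → inA a⁻¹ ∈ M
  base : inV D.x0 ∈ M
  rep : ∀ x, inV x ∈ M → inV (D.rep x) ∈ M
  gel : ∀ x, inV x ∈ M → K.incl A (D.gel x) ∈ K.wsub A Set.univ {a | inA a ∈ M}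
  actV : ∀ g x, K.incl A g ∈ K.wsub A Set.univ {a | inA a ∈ M} → inV x ∈ M →
    inV (D.act.aV g x) ∈ M
  actE : ∀ g x, K.incl A g ∈ K.wsub A Set.univ {a | inA a ∈ M} → inE x ∈ M →
    inE (D.act.aE g x) ∈ M
  actF : ∀ g x, K.incl A g ∈ K.wsub A Set.univ {a | inA a ∈ M} → inF x ∈ M →
    inF (D.act.aF g x) ∈ M
  src : ∀ e, inE e ∈ M → inV (X.src e) ∈ M
  tgt : ∀ e, inE e ∈ M → inV (X.tgt e) ∈ M
  fbase : ∀ f, inF f ∈ M → inV (X.base f) ∈ M
  bd : ∀ f, inF f ∈ M → ∀ eb ∈ X.bd f, inE eb.1 ∈ M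
  path : ∀ x y, inV x ∈ M → inV y ∈ M → ∀ eb ∈ D.path x y, inE eb.1 ∈ M
  faces : ∀ x p, inV x ∈ M → (∀ eb ∈ p, inE eb.1 ∈ M) → ∀ f ∈ D.faces x p, inF f ∈ M

/-- the `A`-part as a subgroup -/
def Good.sub {D : Data K A X} {M : Set (Om A X)} (h : Good D M) : Subgroup A where
  carrier := {a | inA a ∈ M}
  mul_mem' := fun {a b} ha hb => h.mul a b ha hb
  one_mem' := h.one
  inv_mem' := fun {a} ha => h.inv a ha

end Vale.Agent.P173.B1
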