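import Vale.Agent.Lib.P173.B1.Word
import Vale.Agent.Lib.P173.WBase

/-!
# P173 B1: the elements `σ_T`
-/

namespace Vale.Agent.P173.B1

variable {K : ColGraph} {A : Type} [CommGroup A]

/-- `σ_T` -/
noncomputable def sig (T : K.Tri) (x : Fin 3 → A) : K.W A :=
  K.of A (T.t 0) (x 0) * K.of A (T.t 1) (x 1) * K.of A (T.t 2) (x 2)

theorem pi_sig (T : K.Tri) (x : Fin 3 → A) : K.pi A (sig T x) = x := by
  unfold sig
  rw [map_mul, map_mul, ColGraph.pi_of, ColGraph.pi_of, ColGraph.pi_of, T.col_eq, T.col_eq,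
    T.col_eq]
  funext i
  fin_cases i <;> simp

/-- the quotients of the `σ_T` lie in `G` -/
theorem pi_sig_inv_mul (T T' : K.Tri) (x : Fin 3 → A) :
    K.pi A ((sig T x)⁻¹ * sig T' x) = 1 := by
  rw [map_mul, map_inv, pi_sig, pi_sig, inv_mul_cancel]

/-- moving the letter `i` to the front -/
theorem sig_eq (x : Fin 3 → A) (i : Fin 3) :
    ∃ j k : Fin 3, j ≠ i ∧ k ≠ i ∧ ∀ T : K.Tri,
      sig T x = K.of A (T.t i) (x i) * (K.of A (T.t j) (x j) * K.of A (T.t k) (x k)) := by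
  have h01 : ∀ T' : K.Tri, K.of A (T'.t 0) (x 0) * K.of A (T'.t 1) (x 1) =
      K.of A (T'.t 1) (x 1) * K.of A (T'.t 0) (x 0) := fun T' =>
    (K.of_comm A (T'.adj 0 1 (by decide)) _ _).eq
  have h02 : ∀ T' : K.Tri, K.of A (T'.t 0) (x 0) * K.of A (T'.t 2) (x 2) =
      K.of A (T'.t 2) (x 2) * K.of A (T'.t 0) (x 0) := fun T' =>
    (K.of_comm A (T'.adj 0 2 (by decide)) _ _).eq
  have h12 : ∀ T' : K.Tri, K.of A (T'.t 1) (x 1) * K.of A (T'.t 2) (x 2) =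
      K.of A (T'.t 2) (x 2) * K.of A (T'.t 1) (x 1) := fun T' =>
    (K.of_comm A (T'.adj 1 2 (by decide)) _ _).eq
  have e0 : ∀ T' : K.Tri, sig T' x = K.of A (T'.t 0) (x 0) *
      (K.of A (T'.t 1) (x 1) * K.of A (T'.t 2) (x 2)) := fun T' => by
    unfold sig
    rw [mul_assoc]
  have e1 : ∀ T' : K.Tri, sig T' x = K.of A (T'.t 1) (x 1) *
      (K.of A (T'.t 0) (x 0) * K.of A (T'.t 2) (x 2)) := fun T' => by
    unfold sig
    rw [h01, mul_assoc]
  have e2 : ∀ T' : K.Tri, sig T' x = K.of A (T'.t 2) (x 2) *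
      (K.of A (T'.t 0) (x 0) * K.of A (T'.t 1) (x 1)) := fun T' => by
    unfold sig
    rw [mul_assoc, h12, ← mul_assoc, h02, mul_assoc]
  fin_cases i
  · exact ⟨1, 2, by decide, by decide, e0⟩
  · exact ⟨0, 2, by decide, by decide, e1⟩
  · exact ⟨0, 1, by decide, by decide, e2⟩

/-- `σ_T = x_i · τ` with `τ` a product of the two other letters -/
theorem sig_split (T : K.Tri) (x : Fin 3 → A) (i : Fin 3) (B : Subgroup A)
    (hB : ∀ j, j ≠ i → x j ∈ B) :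
    ∃ τ ∈ K.wsub A Set.univ (B : Set A), sig T x = K.of A (T.t i) (x i) * τ := by
  obtain ⟨j, k, hj, hk, h1⟩ := sig_eq (K := K) x i
  have hmem : ∀ (v : K.V) (l : Fin 3), l ≠ i → K.of A v (x l) ∈ K.wsub A Set.univ (B : Set A) :=
    fun v l hl => Subgroup.subset_closure ⟨v, Set.mem_univ _, x l, hB l hl, rfl⟩
  exact ⟨_, Subgroup.mul_mem _ (hmem _ j hj) (hmem _ k hk), h1 T⟩

theorem sig_inv_mul_mem (T T' : K.Tri) (x : Fin 3 → A) (i : Fin 3) (h : T.t i = T'.t i)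
    (B : Subgroup A) (hB : ∀ j, j ≠ i → x j ∈ B) :
    (sig T x)⁻¹ * sig T' x ∈ K.wsub A Set.univ (B : Set A) := by
  obtain ⟨τ, hτ, h1⟩ := sig_split T x i B hB
  obtain ⟨τ', hτ', h2⟩ := sig_split T' x i B hB
  rw [h1, h2, h, mul_inv_rev, mul_assoc, inv_mul_cancel_left]
  exact Subgroup.mul_mem _ (Subgroup.inv_mem _ hτ) hτ'

end Vale.Agent.P173.B1
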