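import Vale.Agent.Lib.P173.Setup

/-!
# P173 B1: letters and words of the graph product
-/

namespace Vale.Agent.P173.B1

variable (K : ColGraph) (A : Type) [CommGroup A]

theorem of_mul (v : K.V) (a b : A) : K.of A v (a * b) = K.of A v a * K.of A v b := by
  have h : PresentedGroup.mk (K.wrel A)
      (FreeGroup.of (v, a) * FreeGroup.of (v, b) * (FreeGroup.of (v, a * b))⁻¹) = 1 :=
    PresentedGroup.one_of_mem (Or.inl ⟨v, a, b, rfl⟩)
  rw [map_mul, map_mul, map_inv, mul_inv_eq_one] at h
  exact h.symm

theorem of_one (v : K.V) : K.of A v 1 = 1 := by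
  have h := of_mul K A v 1 1
  rw [mul_one] at h
  exact left_eq_mul.1 h

theorem of_inv (v : K.V) (a : A) : K.of A v a⁻¹ = (K.of A v a)⁻¹ := by
  rw [eq_inv_iff_mul_eq_one, ← of_mul, inv_mul_cancel, of_one]

theorem of_comm {v w : K.V} (h : K.adj v w) (a b : A) :
    K.of A v a * K.of A w b = K.of A w b * K.of A v a := by
  have h1 : PresentedGroup.mk (K.wrel A)
      (FreeGroup.of (v, a) * FreeGroup.of (w, b) *
        (FreeGroup.of (v, a))⁻¹ * (FreeGroup.of (w, b))⁻¹) = 1 :=
    PresentedGroup.one_of_mem (Or.inr ⟨v, w, a, b, h, rfl⟩)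
  rw [map_mul, map_mul, map_mul, map_inv, map_inv, mul_inv_eq_one, mul_inv_eq_iff_eq_mul] at h1
  exact h1

theorem pi_of (v : K.V) (a : A) : K.pi A (K.of A v a) = Pi.mulSingle (K.col v) a := by
  unfold ColGraph.pi ColGraph.of
  rw [PresentedGroup.toGroup.of]

/-- words -/
noncomputable def wordL (l : List (K.V × A)) : K.W A := (l.map fun c => K.of A c.1 c.2).prod

private theorem Word_nil : wordL K A [] = 1 := rfl

private theorem Word_cons (c : K.V × A) (l : List (K.V × A)) :
    wordL K A (c :: l) = K.of A c.1 c.2 * wordL K A l := by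
  unfold wordL
  rw [List.map_cons, List.prod_cons]

private theorem Word_append (l m : List (K.V × A)) :
    wordL K A (l ++ m) = wordL K A l * wordL K A m := by
  unfold wordL
  rw [List.map_append, List.prod_append]

private theorem Word_inv (B : Subgroup A) (l : List (K.V × A)) (h : ∀ c ∈ l, c.2 ∈ B) :
    ∃ m : List (K.V × A), (∀ c ∈ m, c.2 ∈ B) ∧ (wordL K A l)⁻¹ = wordL K A m := by
  induction l with
  | nil => exact ⟨[], by simp, by rw [Word_nil, inv_one]⟩
  | cons c l ih =>
    obtain ⟨m, hm, he⟩ := ih fun d hd => h d (List.mem_cons_of_mem _ hd)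
    refine ⟨m ++ [(c.1, c.2⁻¹)], ?_, ?_⟩
    · intro d hd
      rw [List.mem_append, List.mem_singleton] at hd
      rcases hd with hd | rfl
      · exact hm d hd
      · exact B.inv_mem (h c List.mem_cons_self)
    · rw [Word_cons, mul_inv_rev, he, Word_append, Word_cons, Word_nil, mul_one, of_inv]

/-- elements of `wsub univ B` are words with letters in the subgroup `B` -/
theorem mem_wsub_iff (B : Subgroup A) (x : K.W A) :
    x ∈ K.wsub A Set.univ (B : Set A) ↔ ∃ l : List (K.V × A), (∀ c ∈ l, c.2 ∈ B) ∧ x = wordL K A l := by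
  constructor
  · intro hx
    unfold ColGraph.wsub at hx
    induction hx using Subgroup.closure_induction with
    | mem y hy =>
      obtain ⟨v, _, b, hb, rfl⟩ := hy
      refine ⟨[(v, b)], ?_, ?_⟩
      · intro c hc
        rw [List.mem_singleton] at hc
        rw [hc]
        exact hb
      · rw [Word_cons, Word_nil, mul_one]
    | one => exact ⟨[], by simp, Word_nil K A⟩
    | mul y z _ _ hy hz =>
      obtain ⟨l, hl, rfl⟩ := hy
      obtain ⟨m, hm, rfl⟩ := hz
      refine ⟨l ++ m, ?_, (Word_append K A l m).symm⟩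
      intro c hc
      rcases List.mem_append.1 hc with hc | hc
      · exact hl c hc
      · exact hm c hc
    | inv y _ hy =>
      obtain ⟨l, hl, rfl⟩ := hy
      exact Word_inv K A B l hl
  · rintro ⟨l, hl, rfl⟩
    induction l with
    | nil =>
      rw [Word_nil]
      exact Subgroup.one_mem _
    | cons c l ih =>
      rw [Word_cons]
      refine Subgroup.mul_mem _ (Subgroup.subset_closure ?_)
        (ih fun d hd => hl d (List.mem_cons_of_mem _ hd))
      exact ⟨c.1, Set.mem_univ _, c.2, hl c List.mem_cons_self, rfl⟩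

/-- every element of `W` is a word -/
theorem exists_word (x : K.W A) : ∃ l : List (K.V × A), x = wordL K A l := by
  have h1 : x ∈ K.wsub A Set.univ ((⊤ : Subgroup A) : Set A) := by
    have h2 : x ∈ Subgroup.closure (Set.range (PresentedGroup.of : K.V × A → K.W A)) := by
      rw [PresentedGroup.closure_range_of]
      exact Subgroup.mem_top _
    refine Subgroup.closure_mono ?_ h2
    rintro _ ⟨c, rfl⟩
    exact ⟨c.1, Set.mem_univ _, c.2, Subgroup.mem_top _, rfl⟩
  obtain ⟨l, _, hl⟩ := (mem_wsub_iff K A ⊤ x).1 h1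
  exact ⟨l, hl⟩

theorem wsub_mono {B C : Set A} (h : B ⊆ C) : K.wsub A Set.univ B ≤ K.wsub A Set.univ C := by
  refine Subgroup.closure_mono ?_
  rintro _ ⟨v, hv, b, hb, rfl⟩
  exact ⟨v, hv, b, h hb, rfl⟩

end Vale.Agent.P173.B1
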